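import Vale.Agent.P062.B.Checker
import Vale.Agent.P062.PB.N5

/-!
# The bounded versions of the nodes of the top-level proof tree
-/

namespace Vale.Agent.P062.PB

open Vale.Agent.P062

theorem dep0 : dep l0 ≤ 17 := by decide +kernel

theorem b0 : MWB 18 ((((((1 <<< 275) ||| (1 <<< 272)) ||| (1 <<< 248)) ||| (1 <<< 320)) ||| (1 <<< 321)) ||| (1 <<< 318)) ((((((1 <<< 276) ||| (1 <<< 273)) ||| (1 <<< 224)) ||| (1 <<< 296)) ||| (1 <<< 322)) ||| (1 <<< 319)) :=
  stepB 17 l0 ((((((1 <<< 275) ||| (1 <<< 272)) ||| (1 <<< 248)) ||| (1 <<< 320)) ||| (1 <<< 321)) ||| (1 <<< 318)) ((((((1 <<< 276) ||| (1 <<< 273)) ||| (1 <<< 224)) ||| (1 <<< 296)) ||| (1 <<< 322)) ||| (1 <<< 319)) 270 0 7452936804141812287998091879891098144755143389892954210226391351811163744138443934798567642207167724925432082295610470733231496888320 [] (by decide +kernel) (le_trans dep0 (by omega)) (by decide +kernel) (by decide +kernel) (by decide +kernel) (by decide +kernel) (by decide +kernel) (by decide +kernel) trivial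

theorem dep1 : dep l1 ≤ 17 := by decide +kernel

theorem b1 : MWB 19 (((((1 <<< 275) ||| (1 <<< 272)) ||| (1 <<< 248)) ||| (1 <<< 320)) ||| (1 <<< 321)) (((((1 <<< 276) ||| (1 <<< 273)) ||| (1 <<< 224)) ||| (1 <<< 296)) ||| (1 <<< 322)) :=
  stepB 18 l1 (((((1 <<< 275) ||| (1 <<< 272)) ||| (1 <<< 248)) ||| (1 <<< 320)) ||| (1 <<< 321)) (((((1 <<< 276) ||| (1 <<< 273)) ||| (1 <<< 224)) ||| (1 <<< 296)) ||| (1 <<< 322)) 318 1067993517960455041197510853084776057301352261178326384973520803911109862890320275011481043468288 238170535535998289368147279676299760003649139817135006351664933130349512668097986230968614753299670842392272246684957433082108038556267053056 [319] (by decide +kernel) (le_trans dep1 (by omega)) (by decide +kernel) (by decide +kernel) (by decide +kernel) (by decide +kernel) (by decide +kernel) (by decide +kernel) ⟨b0, trivial⟩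

theorem dep2 : dep l2 ≤ 17 := by decide +kernel

theorem b2 : MWB 20 ((((1 <<< 275) ||| (1 <<< 272)) ||| (1 <<< 248)) ||| (1 <<< 320)) ((((1 <<< 276) ||| (1 <<< 273)) ||| (1 <<< 224)) ||| (1 <<< 296)) :=
  stepB 19 l2 ((((1 <<< 275) ||| (1 <<< 272)) ||| (1 <<< 248)) ||| (1 <<< 320)) ((((1 <<< 276) ||| (1 <<< 273)) ||| (1 <<< 224)) ||| (1 <<< 296)) 321 8543948143683640329580086824678208458410818089426611079788166431288878903122562200091848347746304 56074482703487851242487678999037773748697135125866405446405507606194585533563814025570755767887683342009052787878361086772745106096128 [322] (by decide +kernel) (le_trans dep2 (by omega)) (by decide +kernel) (by decide +kernel) (by decide +kernel) (by decide +kernel) (by decide +kernel) (by decide +kernel) ⟨b1, trivial⟩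

theorem dep3 : dep l3 ≤ 17 := by decide +kernel

theorem b3 : MWB 21 (((1 <<< 275) ||| (1 <<< 272)) ||| (1 <<< 248)) (((1 <<< 276) ||| (1 <<< 273)) ||| (1 <<< 224)) :=
  stepB 20 l3 (((1 <<< 275) ||| (1 <<< 272)) ||| (1 <<< 248)) (((1 <<< 276) ||| (1 <<< 273)) ||| (1 <<< 224)) 320 127314748520905380391777855525586135065716774604121015664758778084648831235208544136462336 423075857851704253556667357410994851602021638614099288709276231117593977786751362860311941536414125255128802949607210897899520 [296] (by decide +kernel) (le_trans dep3 (by omega)) (by decide +kernel) (by decide +kernel) (by decide +kernel) (by decide +kernel) (by decide +kernel) (by decide +kernel) ⟨b2, trivial⟩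

theorem dep4 : dep l4 ≤ 17 := by decide +kernel

theorem b4 : MWB 22 ((1 <<< 275) ||| (1 <<< 272)) ((1 <<< 276) ||| (1 <<< 273)) :=
  stepB 21 l4 ((1 <<< 275) ||| (1 <<< 272)) ((1 <<< 276) ||| (1 <<< 273)) 248 26959946667150639794667015087019630673637144422540572481103610249216 423076137763556272739607433451195129818345126381343319413816207534601721073374190549048698145598103913597245505392893098983424 [224] (by decide +kernel) (le_trans dep4 (by omega)) (by decide +kernel) (by decide +kernel) (by decide +kernel) (by decide +kernel) (by decide +kernel) (by decide +kernel) ⟨b3, trivial⟩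

theorem dep5 : dep l5 ≤ 17 := by decide +kernel

theorem b5 : MWB 23 (1 <<< 275) (1 <<< 276) :=
  stepB 22 l5 (1 <<< 275) (1 <<< 276) 272 15177100720513508366558296147058741458143803430094840009779784451085189728165691392 83756827760332350584890654905170991293342048655450099971808077113349608741575306476432700194737354120899017943743642329510298397966336 [273] (by decide +kernel) (le_trans dep5 (by omega)) (by decide +kernel) (by decide +kernel) (by decide +kernel) (by decide +kernel) (by decide +kernel) (by decide +kernel) ⟨b4, trivial⟩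

end Vale.Agent.P062.PB
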